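import Vale.Agent.P181.MN.Defs

set_option autoImplicit false

/-!
# P181, MN, (N2): the numbers
-/

namespace Vale.Agent.P181.MN.H410

open Vale.Agent.P181.MN

theorem choose_fac_le {a b : ℕ} (hb : 1 ≤ b) :
    (a * b + b - 1).choose (b - 1) * b.factorial ≤ (a * b + b) ^ b := by
  obtain ⟨c, rfl⟩ : ∃ c, b = c + 1 := ⟨b - 1, by omega⟩
  have h1 : (a * (c + 1) + (c + 1) - 1).choose (c + 1 - 1) * (c + 1).factorial
      = (c + 1) * (a * (c + 1) + c).descFactorial c := by
    rw [Nat.descFactorial_eq_factorial_mul_choose, Nat.factorial_succ,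
      show a * (c + 1) + (c + 1) - 1 = a * (c + 1) + c by omega,
      show c + 1 - 1 = c by omega]
    ring
  rw [h1, pow_succ, mul_comm]
  refine Nat.mul_le_mul ?_ (by nlinarith [Nat.zero_le (a * (c + 1))])
  refine (Nat.descFactorial_le_pow _ _).trans (Nat.pow_le_pow_left (by omega) _)

theorem fac_le_pow {b c : ℕ} (hc : c ≤ b) : c.factorial ≤ b ^ b :=
  (Nat.factorial_le hc).trans (Nat.factorial_le_pow b)

theorem left_le {a b m : ℕ} (ha : 1 ≤ a) (hab : a ≤ b) :
    ((a + b).choose a : ℝ) * 2 ^ ((m - 2) * a) * ((b - 1).factorial * (b - 2).factorial) *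
      (((a * b + b - 1).choose (b - 1) : ℝ) * b.factorial) ≤
    2 ^ (2 * b) * 2 ^ ((m - 2) * b) * (((b : ℝ) ^ b) * (b : ℝ) ^ b) * (2 * a * b : ℝ) ^ b := by
  have hb : 1 ≤ b := ha.trans hab
  have e1 : ((a + b).choose a : ℝ) ≤ 2 ^ (2 * b) := by
    have h : (a + b).choose a ≤ 2 ^ (2 * b) :=
      (Nat.choose_le_two_pow _ _).trans (Nat.pow_le_pow_right (by norm_num) (by omega))
    exact_mod_cast h
  have e2 : (2 : ℝ) ^ ((m - 2) * a) ≤ 2 ^ ((m - 2) * b) :=
    pow_le_pow_right₀ (by norm_num) (Nat.mul_le_mul_left _ hab)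
  have e3 : ((b - 1).factorial : ℝ) ≤ (b : ℝ) ^ b := by
    have := fac_le_pow (b := b) (c := b - 1) (by omega)
    exact_mod_cast this
  have e4 : ((b - 2).factorial : ℝ) ≤ (b : ℝ) ^ b := by
    have := fac_le_pow (b := b) (c := b - 2) (by omega)
    exact_mod_cast this
  have e5 : (((a * b + b - 1).choose (b - 1) : ℝ) * b.factorial) ≤ (2 * a * b : ℝ) ^ b := by
    have h := choose_fac_le (a := a) (b := b) hb
    have h2 : (a * b + b) ^ b ≤ (2 * a * b) ^ b :=
      Nat.pow_le_pow_left (by nlinarith) _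
    exact_mod_cast h.trans h2
  gcongr

/-- the comparison of the exponents. -/
theorem compare {a b m e L t lb lg l2 p : ℝ} (he0 : 0 < e) (he1 : e ≤ 1) (hL : 28 ≤ e * L)
    (ht0 : 0 ≤ t) (hte : 50 * t ≤ e * L) (hb1 : lb ≤ L + t) (hg1 : 2 * L - t ≤ lg)
    (hbpos : 0 < b) (heb : 120 ≤ e * b) (hgap : e * b ≤ b - a) (hl2 : l2 ≤ 7 / 10)
    (hl20 : 0 ≤ l2) (hp1 : 1 ≤ p) (hmp : m = p + 2) (hmb : m ≤ b) :
    2 * b * l2 + p * b * l2 + (b * lb + b * lb) + b * (l2 + L + lb) ≤
      2 * (b - m) * lg + p * (b - 2 - a) * (lg - lb) := by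
  have hLpos : 0 < L := by
    by_contra h
    push Not at h
    have : e * L ≤ 0 := mul_nonpos_of_nonneg_of_nonpos he0.le h
    linarith
  have hp0 : 0 < p := by linarith
  obtain ⟨w, hw⟩ : ∃ w : ℝ, w = p * (e * b * L) := ⟨_, rfl⟩
  have u1 : 2 * b * l2 + p * b * l2 + (b * lb + b * lb)
      + b * (l2 + L + lb) ≤ (p + 3) * b * l2 + 4 * b * L + 3 * b * t := by
    have := mul_le_mul_of_nonneg_left hb1 hbpos.le
    linarith
  have u2 : (p + 3) * b * l2 ≤ w / 10 := by
    have h1 : (p + 3) * b * l2 ≤ (4 * p) * b * (7 / 10) := by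
      have : (p + 3) * b ≤ (4 * p) * b := mul_le_mul_of_nonneg_right (by linarith) hbpos.le
      exact mul_le_mul this hl2 hl20 (by positivity)
    have h2 : 28 * (p * b) ≤ (e * L) * (p * b) :=
      mul_le_mul_of_nonneg_right hL (by positivity)
    rw [hw]; linarith
  have u3 : 5 * b * t ≤ w / 10 := by
    have h1 : 50 * t * b ≤ e * L * b := mul_le_mul_of_nonneg_right hte hbpos.le
    have h2 : 1 * (e * b * L) ≤ p * (e * b * L) :=
      mul_le_mul_of_nonneg_right hp1 (by positivity)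
    rw [hw]; linarith
  have u4 : 4 * (p + 2) * L ≤ w / 10 := by
    have h1 : 4 * (p + 2) * L ≤ 12 * p * L := mul_le_mul_of_nonneg_right (by linarith) hLpos.le
    have h2 : 120 * (p * L) ≤ (e * b) * (p * L) :=
      mul_le_mul_of_nonneg_right heb (by positivity)
    rw [hw]; linarith
  have v1 : 4 * b * L - 2 * b * t - 4 * (p + 2) * L ≤ 2 * (b - m) * lg := by
    have h1 : 2 * (b - m) * (2 * L - t) ≤ 2 * (b - m) * lg :=
      mul_le_mul_of_nonneg_left hg1 (by linarith)
    have h2 : 0 ≤ 2 * (p + 2) * t := by positivity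
    rw [hmp] at h1 ⊢
    linarith
  have v2 : w * (9 / 10) ≤ p * (b - 2 - a) * (lg - lb) := by
    have h0 : e * L ≤ L := mul_le_of_le_one_left hLpos.le he1
    have h1 : (24 / 25) * L ≤ lg - lb := by linarith
    have h2 : (59 / 60) * (e * b) ≤ b - 2 - a := by linarith
    have h3 : p * ((59 / 60) * (e * b)) ≤ p * (b - 2 - a) :=
      mul_le_mul_of_nonneg_left h2 hp0.le
    have h4 : p * ((59 / 60) * (e * b)) * ((24 / 25) * L) ≤
        p * (b - 2 - a) * (lg - lb) :=
      mul_le_mul h3 h1 (by positivity) (le_trans (by positivity) h3)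
    have h5 : 0 ≤ p * (e * b * L) := by positivity
    rw [hw]; linarith
  have hw0 : 0 ≤ w := by rw [hw]; positivity
  linarith

theorem num : NumN := by
  intro ε hε
  obtain ⟨e, he, he0, he1⟩ : ∃ e : ℝ, e * (1 + ε) = ε ∧ 0 < e ∧ e ≤ 1 :=
    ⟨ε / (1 + ε), by field_simp, by positivity, by
      rw [div_le_one (by positivity)]; linarith⟩
  obtain ⟨K, hK⟩ := exists_nat_ge (max 20 (50 / e))
  obtain ⟨a₀, ha₀⟩ := exists_nat_ge (max (120 / e) (Real.exp (28 / e)))
  have hK20 : (20 : ℝ) ≤ K := (le_max_left _ _).trans hK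
  have hKe : 50 / e ≤ K := (le_max_right _ _).trans hK
  have hK20' : 20 ≤ K := by exact_mod_cast hK20
  refine ⟨K, a₀, hK20', ?_⟩
  intro a b m g ha hab hbK hm hmb hg
  have haR : (a₀ : ℝ) ≤ a := by exact_mod_cast ha
  have ha1 : 120 / e ≤ a := ((le_max_left _ _).trans ha₀).trans haR
  have ha2 : Real.exp (28 / e) ≤ a := ((le_max_right _ _).trans ha₀).trans haR
  have ha120 : (120 : ℝ) ≤ e * a := by
    rw [div_le_iff₀ he0] at ha1; linarith
  have hapos : (0 : ℝ) < a := (Real.exp_pos _).trans_le ha2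
  have hL28 : 28 / e ≤ Real.log a := by
    rw [← Real.log_exp (28 / e)]; exact Real.log_le_log (Real.exp_pos _) ha2
  have hL : (28 : ℝ) ≤ e * Real.log a := by
    rw [div_le_iff₀ he0] at hL28; linarith
  have hab' : (a : ℝ) ≤ b := by nlinarith
  have hbpos : (0 : ℝ) < b := hapos.trans_le hab'
  have hgap : e * b ≤ (b : ℝ) - a := by
    have h1 : (1 + ε) * (e * b) = ε * b := by
      calc (1 + ε) * (e * b) = (e * (1 + ε)) * b := by ring
        _ = ε * b := by rw [he]
    have h2 : ε * b ≤ (1 + ε) * ((b : ℝ) - a) := by nlinarith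
    have h3 : (1 + ε) * (e * b) ≤ (1 + ε) * ((b : ℝ) - a) := by rw [h1]; exact h2
    exact le_of_mul_le_mul_left h3 (by positivity)
  have heb : (120 : ℝ) ≤ e * b := ha120.trans (mul_le_mul_of_nonneg_left hab' he0.le)
  have haN : 1 ≤ a := by exact_mod_cast (show (0 : ℝ) < a from hapos)
  have habN : a ≤ b := by exact_mod_cast hab'
  have hab2 : a + 2 ≤ b := by
    have : ((a + 2 : ℕ) : ℝ) ≤ b := by push_cast; linarith
    exact_mod_cast this
  have hmbN : m ≤ b := (Nat.le_self_pow (by norm_num) m).trans hmb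
  have hgpos : (0 : ℝ) < g := by
    have h1 : 0 < g ^ K := lt_of_lt_of_le (by positivity) hg
    have h2 : 0 < g := Nat.pos_of_ne_zero (by
      rintro rfl
      rw [zero_pow (by omega)] at h1
      exact lt_irrefl _ h1)
    exact_mod_cast h2
  -- the logarithms
  obtain ⟨L, hLd⟩ : ∃ L, L = Real.log a := ⟨_, rfl⟩
  obtain ⟨lb, hlb⟩ : ∃ l, l = Real.log b := ⟨_, rfl⟩
  obtain ⟨lg, hlg⟩ : ∃ l, l = Real.log g := ⟨_, rfl⟩
  rw [← hLd] at hL
  have hKpos : (0 : ℝ) < K := by linarith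
  have hLpos : 0 < L := by nlinarith
  obtain ⟨t, ht⟩ : ∃ t : ℝ, K * t = L := ⟨L / K, by field_simp⟩
  have ht0 : 0 ≤ t := by
    by_contra h
    push Not at h
    nlinarith
  have hte : 50 * t ≤ e * L := by
    have h1 : (50 : ℝ) ≤ e * K := by rw [div_le_iff₀ he0] at hKe; linarith
    rw [← ht]
    nlinarith
  have hb1 : lb ≤ L + t := by
    have h : (b : ℝ) ^ K ≤ (a : ℝ) ^ (K + 1) := by exact_mod_cast hbK
    have h2 := Real.log_le_log (by positivity) h
    rw [Real.log_pow, Real.log_pow, ← hLd, ← hlb] at h2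
    push_cast at h2
    have h3 : (K : ℝ) * lb ≤ K * (L + t) := by rw [mul_add, ht]; linarith
    exact le_of_mul_le_mul_left h3 hKpos
  have hg1 : 2 * L - t ≤ lg := by
    have h : (a : ℝ) ^ (2 * K - 1) ≤ (g : ℝ) ^ K := by exact_mod_cast hg
    have h2 := Real.log_le_log (by positivity) h
    rw [Real.log_pow, Real.log_pow, ← hLd, ← hlg, Nat.cast_sub (by omega)] at h2
    push_cast at h2
    have h3 : (K : ℝ) * (2 * L - t) ≤ K * lg := by rw [mul_sub, ht]; linarith
    exact le_of_mul_le_mul_left h3 hKpos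
  -- the two sides
  refine (left_le haN habN).trans ?_
  have hbm2 : (((b - 2 : ℕ) : ℝ)) = b - 2 := by
    rw [Nat.cast_sub (by omega)]; norm_num
  have hb2pos : (0 : ℝ) < (b : ℝ) - 2 := by
    have : ((a + 2 : ℕ) : ℝ) ≤ b := by exact_mod_cast hab2
    push_cast at this; linarith
  have hY : (g : ℝ) ^ (2 * (b - m)) * ((g : ℝ) / b) ^ ((m - 2) * ((b - 2) - a)) ≤
      (g : ℝ) ^ (2 * (b - m)) * (1 + (g : ℝ) / ((b - 2 : ℕ) : ℝ)) ^ ((m - 2) * ((b - 2) - a)) := by
    refine mul_le_mul_of_nonneg_left (pow_le_pow_left₀ (by positivity) ?_ _) (by positivity)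
    rw [hbm2]
    have : (g : ℝ) / b ≤ g / ((b : ℝ) - 2) :=
      div_le_div_of_nonneg_left hgpos.le hb2pos (by linarith)
    linarith
  refine le_trans ?_ hY
  rw [← Real.log_le_log_iff (by positivity) (by positivity)]
  have hX1 : Real.log (2 ^ (2 * b) * 2 ^ ((m - 2) * b) * (((b : ℝ) ^ b) * (b : ℝ) ^ b) *
      (2 * a * b : ℝ) ^ b) = ((2 * b : ℕ) : ℝ) * Real.log 2 + (((m - 2) * b : ℕ) : ℝ) * Real.log 2
      + (b * lb + b * lb) + b * (Real.log 2 + L + lb) := by
    rw [Real.log_mul (by positivity) (by positivity), Real.log_mul (by positivity) (by positivity),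
      Real.log_mul (by positivity) (by positivity), Real.log_mul (by positivity) (by positivity),
      Real.log_pow, Real.log_pow, Real.log_pow, Real.log_pow,
      Real.log_mul (by positivity) (by positivity), Real.log_mul (by positivity) (by positivity),
      hLd, hlb]
  have hY1 : Real.log ((g : ℝ) ^ (2 * (b - m)) * ((g : ℝ) / b) ^ ((m - 2) * ((b - 2) - a))) =
      ((2 * (b - m) : ℕ) : ℝ) * lg + (((m - 2) * ((b - 2) - a) : ℕ) : ℝ) * (lg - lb) := by
    rw [Real.log_mul (by positivity) (by positivity), Real.log_pow, Real.log_pow,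
      Real.log_div (by positivity) (by positivity), hlb, hlg]
  rw [hX1, hY1]
  have hm2 : ((m - 2 : ℕ) : ℝ) = (m : ℝ) - 2 := by
    rw [Nat.cast_sub (by omega)]; norm_num
  have hbm : ((b - m : ℕ) : ℝ) = (b : ℝ) - m := by
    rw [Nat.cast_sub hmbN]
  have hba : (((b - 2) - a : ℕ) : ℝ) = (b : ℝ) - 2 - a := by
    rw [Nat.cast_sub (by omega), hbm2]
  rw [Nat.cast_mul, Nat.cast_mul, Nat.cast_mul, Nat.cast_mul, hm2, hbm, hba]
  push_cast
  have hm3 : (3 : ℝ) ≤ m := by exact_mod_cast hm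
  have hl2 : Real.log 2 ≤ 7 / 10 := by
    have := Real.log_two_lt_d9; linarith
  have hl20 : 0 ≤ Real.log 2 := Real.log_nonneg (by norm_num)
  have hmb' : (m : ℝ) ≤ b := by exact_mod_cast hmbN
  exact compare he0 he1 hL ht0 hte hb1 hg1 hbpos heb hgap hl2 hl20 (by linarith) (by ring) hmb'

end Vale.Agent.P181.MN.H410
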